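import Mathlib

namespace Vale.Agent.P060

/-- `G` has a `K_t` minor: there are `t` pairwise disjoint nonempty vertex sets, each inducing a
connected subgraph, with an edge of `G` between any two of them. -/
def HasCliqueMinor {V : Type*} (G : SimpleGraph V) (t : ℕ) : Prop :=
  ∃ B : Fin t → Set V,
    (∀ i, (B i).Nonempty ∧ (G.induce (B i)).Connected) ∧
    ∀ i j, i ≠ j → Disjoint (B i) (B j) ∧ ∃ x ∈ B i, ∃ y ∈ B j, G.Adj x y

/-- The Hadwiger number: the largest `t` such that `G` has a `K_t` minor. -/
noncomputable def hadwigerNumber {V : Type*} (G : SimpleGraph V) : ℕ :=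
  sSup {t : ℕ | HasCliqueMinor G t}

end Vale.Agent.P060
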